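import Vale.Agent.P071.MathlibUsed

/-!
# Hot spots for simply connected planar domains: definitions used by the statement

The plane is `ℂ` with its Euclidean norm and Lebesgue measure.
-/

open MeasureTheory Metric
open scoped ContDiff ComplexConjugate

namespace Vale.Agent.P071

/-- `∂φ/∂x`. -/
noncomputable def px (φ : ℂ → ℝ) (z : ℂ) : ℝ := fderiv ℝ φ z 1

/-- `∂φ/∂y`. -/
noncomputable def py (φ : ℂ → ℝ) (z : ℂ) : ℝ := fderiv ℝ φ z Complex.I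

/-- `v ∈ H¹(Ω)` with weak gradient `(gx, gy)`. -/
structure IsH1 (Ω : Set ℂ) (v gx gy : ℂ → ℝ) : Prop where
  v_mem : MemLp v 2 (volume.restrict Ω)
  gx_mem : MemLp gx 2 (volume.restrict Ω)
  gy_mem : MemLp gy 2 (volume.restrict Ω)
  weak_x : ∀ φ : ℂ → ℝ, ContDiff ℝ ∞ φ → HasCompactSupport φ → tsupport φ ⊆ Ω →
    ∫ z in Ω, v z * px φ z = -∫ z in Ω, gx z * φ z
  weak_y : ∀ φ : ℂ → ℝ, ContDiff ℝ ∞ φ → HasCompactSupport φ → tsupport φ ⊆ Ω →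
    ∫ z in Ω, v z * py φ z = -∫ z in Ω, gy z * φ z

/-- `μ₁(Ω) = inf { ∫|∇v|² / ∫v² : 0 ≠ v ∈ H¹(Ω), ∫ v = 0 }`. -/
noncomputable def muOne (Ω : Set ℂ) : ℝ :=
  sInf {q : ℝ | ∃ v gx gy : ℂ → ℝ, IsH1 Ω v gx gy ∧ ∫ z in Ω, v z = 0 ∧ 0 < ∫ z in Ω, v z ^ 2 ∧
    q = (∫ z in Ω, (gx z ^ 2 + gy z ^ 2)) / ∫ z in Ω, v z ^ 2}

/-- `u ∈ V(Ω)`: a weak solution of `-Δu = μ₁(Ω) u` in `Ω`, `∂u/∂ν = 0` on `∂Ω`. -/
def InV (Ω : Set ℂ) (u : ℂ → ℝ) : Prop :=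
  ∃ gx gy : ℂ → ℝ, IsH1 Ω u gx gy ∧
    ∀ v hx hy : ℂ → ℝ, IsH1 Ω v hx hy →
      ∫ z in Ω, (gx z * hx z + gy z * hy z) = muOne Ω * ∫ z in Ω, u z * v z

/-- `Ω` has Lipschitz boundary: near each boundary point `p`, after a rotation by the unit
vector `e`, `Ω` is the set above the graph of a Lipschitz function `g`. -/
def LipschitzBoundary (Ω : Set ℂ) : Prop :=
  ∀ p ∈ frontier Ω, ∃ (e : ℂ) (r : ℝ) (L : NNReal) (g : ℝ → ℝ),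
    ‖e‖ = 1 ∧ 0 < r ∧ LipschitzWith L g ∧
      ∀ z ∈ ball p r, z ∈ Ω ↔ g ((conj e * (z - p)).re) < (conj e * (z - p)).im

end Vale.Agent.P071
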