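import Mathlib.Algebra.Order.Archimedean.Real.Hom
import Mathlib.Algebra.Order.Quantale
import Mathlib.Algebra.Ring.IsFormallyReal
import Mathlib.Analysis.CStarAlgebra.ContinuousMap
import Mathlib.Analysis.Calculus.BumpFunction.Convolution
import Mathlib.Analysis.Calculus.FDeriv.Symmetric
import Mathlib.Analysis.Calculus.LineDeriv.IntegrationByParts
import Mathlib.Analysis.Complex.BranchLogRoot
import Mathlib.Analysis.Complex.Isometry
import Mathlib.Analysis.Complex.LocallyUniformLimit
import Mathlib.Analysis.Complex.OperatorNorm
import Mathlib.Analysis.Complex.Poisson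
import Mathlib.Analysis.Complex.Polynomial.Basic
import Mathlib.Analysis.Complex.Schwarz
import Mathlib.Analysis.Complex.TaylorSeries
import Mathlib.Analysis.Distribution.AEEqOfIntegralContDiff
import Mathlib.Analysis.Fourier.AddCircle
import Mathlib.Analysis.InnerProductSpace.OfNorm
import Mathlib.Analysis.Normed.Group.Tannery
import Mathlib.Analysis.Normed.Lp.SmoothApprox
import Mathlib.Analysis.PSeries
import Mathlib.Analysis.Real.Pi.Bounds
import Mathlib.Computability.Reduce
import Mathlib.Geometry.Euclidean.Angle.Oriented.Rotation
import Mathlib.LinearAlgebra.Matrix.FiniteDimensional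
import Mathlib.MeasureTheory.Measure.Lebesgue.VolumeOfBalls
import Mathlib.MeasureTheory.Order.Group.Lattice
import Mathlib.Order.CompletePartialOrder
import Mathlib.RingTheory.Etale.Weakly
import Mathlib.RingTheory.Finiteness.ModuleFinitePresentation
import Mathlib.RingTheory.Flat.TorsionFree
import Mathlib.RingTheory.PicardGroup
import Mathlib.RingTheory.RegularLocalRing.Defs
import Mathlib.RingTheory.SimpleRing.Principal
import Mathlib.RingTheory.TotallySplit
import Mathlib.Tactic
import Mathlib.Topology.Algebra.ProperAction.Basic
import Mathlib.Topology.Order.LowerUpperTopology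
import Mathlib.Topology.UniformSpace.Uniformizable

/-! The part of Mathlib that the development of this folder uses. -/
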